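import Vale.Agent.P241GS.Gen
import Vale.Agent.P251CP.Col

/-!
# P241G, row D1: towers of test objects
-/

open CategoryTheory MonoidalCategory Limits

namespace Vale.Agent.P241GW

open P251.H P251.H.GS P251.H.GS.StabInput P251CP

universe u

variable (M : Type u) [Category.{0} M] [MonoidalCategory M] [SymmetricCategory M]
  [MonoidalClosed M] [HasZeroMorphisms M] [HasColimitsOfSize.{0, 0} M] [GS.StabInput M]

/-- a family of objects with `A (j + 1) (a + 1) = U ⊗ A j a` -/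
structure Tw where
  /-- the objects -/
  A : ℕ → ℕ → M
  /-- the stabilisation -/
  τ : ∀ j a, A (j + 1) (a + 1) ⟶ A j a
  /-- the comparison -/
  c : ∀ j a, U M ⊗ A j a ≅ A (j + 1) (a + 1)
  hc : ∀ j a, (c j a).hom ≫ τ j a = lamU M ▷ A j a ≫ (λ_ _).hom

namespace Tw

variable {M} (W : Tw M) {X Y : M}

/-- the elements -/
abbrev T (X : M) : Type := Σ j a : ℕ, (W.A j a ⟶ X)

/-- the iterated stabilisation -/
def τk (j a : ℕ) : (k : ℕ) → (W.A (j + k) (a + k) ⟶ W.A j a)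
  | 0 => 𝟙 _
  | k + 1 => W.τ (j + k) (a + k) ≫ τk j a k

theorem exists_iso (j a k : ℕ) : ∃ e : pwM k (W.A j a) ≅ W.A (j + k) (a + k),
    e.hom ≫ W.τk j a k = tkM k (W.A j a) := by
  induction k with
  | zero => exact ⟨Iso.refl _, Category.id_comp _⟩
  | succ k ih =>
    obtain ⟨e, he⟩ := ih
    refine ⟨whiskerLeftIso (U M) e ≪≫ W.c (j + k) (a + k), ?_⟩
    change (U M ◁ e.hom ≫ (W.c (j + k) (a + k)).hom) ≫ W.τ (j + k) (a + k) ≫ W.τk j a k =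
      (lamU M ▷ _ ≫ (λ_ _).hom) ≫ tkM k _
    rw [Category.assoc, ← Category.assoc (W.c (j + k) (a + k)).hom, W.hc, Category.assoc,
      whisker_exchange_assoc, leftUnitor_naturality_assoc, he, Category.assoc]

/-- the homotopy class -/
def q (x : W.T X) : Σ j a : ℕ, ((HM.proj M).obj (W.A j a) ⟶ (HM.proj M).obj X) :=
  ⟨x.1, x.2.1, (HM.proj M).map x.2.2⟩

/-- the system of the stable classes -/
def sys (X : M) : Sys (W.T X) where
  σ x := ⟨x.1 + 1, x.2.1 + 1, W.τ _ _ ≫ x.2.2⟩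
  H x y := W.q x = W.q y
  eqv := ⟨fun _ => rfl, Eq.symm, Eq.trans⟩
  map h := congrArg (fun z : Σ j a : ℕ, ((HM.proj M).obj (W.A j a) ⟶ (HM.proj M).obj X) =>
    (⟨z.1 + 1, z.2.1 + 1, (HM.proj M).map (W.τ _ _) ≫ z.2.2⟩ :
      Σ j a : ℕ, ((HM.proj M).obj (W.A j a) ⟶ (HM.proj M).obj X))) h

theorem H_iff {j a : ℕ} (g g' : W.A j a ⟶ X) :
    (W.sys X).H ⟨j, a, g⟩ ⟨j, a, g'⟩ ↔ MHtpy g g' := by
  refine ⟨fun h => (HM.proj_map_eq_iff _ _).1 ?_, fun h => ?_⟩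
  · exact eq_of_heq (Sigma.mk.inj (eq_of_heq (Sigma.mk.inj h).2)).2
  · exact congrArg (fun z => (⟨j, a, z⟩ :
      Σ j a : ℕ, ((HM.proj M).obj (W.A j a) ⟶ (HM.proj M).obj X))) (HM.sound h)

theorem H_idx {x y : W.T X} (h : (W.sys X).H x y) : x.1 = y.1 ∧ x.2.1 = y.2.1 :=
  ⟨congrArg (·.1) h, congrArg (·.2.1) h⟩

theorem it_eq {j a : ℕ} (g : W.A j a ⟶ X) (k : ℕ) :
    (W.sys X).σ^[k] ⟨j, a, g⟩ = ⟨j + k, a + k, W.τk j a k ≫ g⟩ := by
  induction k with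
  | zero => exact congrArg (fun z => (⟨j, a, z⟩ : W.T X)) (Category.id_comp g).symm
  | succ k ih =>
    rw [Function.iterate_succ_apply', ih]
    exact congrArg (fun z => (⟨j + (k + 1), a + (k + 1), z⟩ : W.T X)) (Category.assoc _ _ _).symm

/-- composition with a morphism -/
def post (f : X ⟶ Y) (x : W.T X) : W.T Y := ⟨x.1, x.2.1, x.2.2 ≫ f⟩

theorem mh_iso {A B : M} (e : A ≅ B) (g g' : B ⟶ X) :
    MHtpy (e.hom ≫ g) (e.hom ≫ g') ↔ MHtpy g g' :=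
  ⟨fun h => by simpa using h.comp_left e.inv, fun h => h.comp_left _⟩

theorem key {R : W.T X → W.T X → Prop} {R' : W.T Y → W.T Y → Prop} (h : (W.sys X).Gen R)
    (h' : (W.sys Y).Gen R') (f : X ⟶ Y) :
    (∃ e : Quot R ≃ Quot R', ∀ x, e (Quot.mk R x) = Quot.mk R' (W.post f x)) ↔
      ∀ j a, SM f (W.A j a) ∧ IM f (W.A j a) := by
  rw [h.equiv_iff h' (W.post f) (fun x => congrArg (fun z => (⟨x.1 + 1, x.2.1 + 1, z⟩ : W.T Y))
    (Category.assoc _ _ _)) fun x y e => congrArg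
      (fun z : Σ j a : ℕ, ((HM.proj M).obj (W.A j a) ⟶ (HM.proj M).obj X) =>
      (⟨z.1, z.2.1, z.2.2 ≫ (HM.proj M).map f⟩ :
        Σ j a : ℕ, ((HM.proj M).obj (W.A j a) ⟶ (HM.proj M).obj Y))) e]
  refine ⟨fun ⟨h1, h2⟩ j a => ⟨fun y => ?_, fun x x' b => ?_⟩, fun H => ⟨?_, ?_⟩⟩
  · obtain ⟨k, ⟨j', a', x⟩, b⟩ := h1 ⟨j, a, y⟩
    rw [W.it_eq] at b
    obtain ⟨rfl, rfl⟩ : j' = j + k ∧ a' = a + k := W.H_idx b
    obtain ⟨e, he⟩ := W.exists_iso j a k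
    refine ⟨k, e.hom ≫ x, ?_⟩
    rw [← he, Category.assoc, Category.assoc]
    exact ((W.H_iff _ _).1 b).comp_left _
  · obtain ⟨k, l, c⟩ := h2 ⟨j, a, x⟩ ⟨j, a, x'⟩ ((W.H_iff _ _).2 b)
    rw [W.it_eq, W.it_eq] at c
    obtain rfl : k = l := Nat.add_left_cancel (W.H_idx c).1
    obtain ⟨e, he⟩ := W.exists_iso j a k
    refine ⟨k, ?_⟩
    rw [← he, Category.assoc, Category.assoc]
    exact ((W.H_iff _ _).1 c).comp_left _
  · rintro ⟨j, a, y⟩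
    obtain ⟨k, x, b⟩ := (H j a).1 y
    obtain ⟨e, he⟩ := W.exists_iso j a k
    refine ⟨k, ⟨_, _, e.inv ≫ x⟩, ?_⟩
    rw [W.it_eq]
    refine (W.H_iff _ _).2 ((mh_iso e _ _).1 ?_)
    rwa [← Category.assoc, Iso.hom_inv_id_assoc, ← Category.assoc, he]
  · rintro ⟨j, a, x⟩ ⟨j', a', x'⟩ b
    obtain ⟨rfl, rfl⟩ : j = j' ∧ a = a' := W.H_idx b
    obtain ⟨k, c⟩ := (H j a).2 x x' ((W.H_iff _ _).1 b)
    obtain ⟨e, he⟩ := W.exists_iso j a k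
    refine ⟨k, k, ?_⟩
    rw [W.it_eq, W.it_eq]
    refine (W.H_iff _ _).2 ((mh_iso e _ _).1 ?_)
    rwa [← Category.assoc, ← Category.assoc, he]

end Tw

end Vale.Agent.P241GW
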