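import Vale.Agent.P241GW.Ind
import Vale.Agent.P241GW.Abs

/-!
# P241G, row D1
-/

open CategoryTheory MonoidalCategory Limits OnePoint Matrix

noncomputable section

namespace Vale.Agent.P241GW

open P251.G P251.G.LC P251.H P251.St P251CX P241.St P241GX P241GA P241GA.GIn P241GR
open P251.H.GS.StabInput
open P241Z (reg)

universe u

variable (G : Type) [Group G] [Finite G]

/-- `ℝ^j ⊕ a ρ'` -/
def RS (j a : ℕ) : GSpace G :=
  haveI : LocallyCompactSpace (Red G j a) := lc_red j a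
  letI : MulAction G (Red G j a) :=
    { smul g x := ⟨(x.1.1, tw g x.1.2), fun i =>
        (finsum_comp_equiv (Equiv.mulLeft g⁻¹) (f := x.1.2 i)).trans (x.2 i)⟩
      one_smul x := Subtype.ext (Prod.ext rfl (funext fun i => funext fun k =>
        congrArg (x.1.2 i) (by rw [inv_one, one_mul])))
      mul_smul g h x := Subtype.ext (Prod.ext rfl (funext fun i => funext fun k =>
        congrArg (x.1.2 i) (by rw [_root_.mul_inv_rev, mul_assoc]))) }
  haveI : ContinuousConstSMul G (Red G j a) := ⟨fun g => Continuous.subtype_mk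
    (f := fun x : Red G j a => (x.1.1, tw g x.1.2)) (by unfold tw; fun_prop) _⟩
  ⟨Red G j a⟩

variable (C : Type) [TopologicalSpace C] (j a : ℕ)

/-- one more line -/
def hS : ℝ × C × Red G j a ≃ₜ C × Red G (j + 1) a where
  toFun p := (p.2.1, ⟨(vecCons p.1 p.2.2.1.1, p.2.2.1.2), p.2.2.2⟩)
  invFun p := (p.2.1.1 0, p.1, ⟨(vecTail p.2.1.1, p.2.1.2), p.2.2⟩)
  left_inv _ := rfl
  right_inv p := Prod.ext rfl (Subtype.ext (Prod.ext (cons_head_tail p.2.1.1) rfl))
  continuous_toFun := by fun_prop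
  continuous_invFun := by unfold vecTail; fun_prop

/-- one more reduced regular representation -/
def hL : {x : G → ℝ | ∑ᶠ k, x k = 0} × C × Red G j a ≃ₜ C × Red G j (a + 1) where
  toFun p := (p.2.1, ⟨(p.2.2.1.1, vecCons p.1.1 p.2.2.1.2), Fin.cases p.1.2 p.2.2.2⟩)
  invFun p := (⟨p.2.1.2 0, p.2.2 0⟩, p.1, ⟨(p.2.1.1, vecTail p.2.1.2), fun i => p.2.2 i.succ⟩)
  left_inv _ := rfl
  right_inv p := Prod.ext rfl (Subtype.ext (Prod.ext rfl (cons_head_tail p.2.1.2)))
  continuous_toFun := by fun_prop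
  continuous_invFun := by unfold vecTail; fun_prop

/-- one more regular representation -/
def hV : (G → ℝ) × C × Red G j a ≃ₜ C × Red G (j + 1) (a + 1) :=
  ((eHomeo G).symm.prodCongr (.refl _)).trans ((Homeomorph.prodAssoc _ _ _).trans
    (((Homeomorph.refl _).prodCongr (hS G C j a)).trans (hL G C (j + 1) a)))

variable {G} (H : Subgroup G)

/-- `G/H × ℝ^j × a ρ'` -/
abbrev KK : GSpace G := Kz H (RS G j a)

omit [Finite G] in
theorem tw_cons (g : G) (w : G → ℝ) (s : Fin a → G → ℝ) :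
    vecCons (fun k => w (g⁻¹ * k)) (tw g s) = tw g (vecCons w s) :=
  funext (Fin.cases rfl fun _ => rfl)

/-- the orbit -/
def i0 : orb H ≅ gl (KK 0 0 H) :=
  haveI : Unique (Red G 0 0) := ⟨⟨⟨(0, 0), fun i => i.elim0⟩⟩, fun _ => Subsingleton.elim _ _⟩
  glIso (Homeomorph.prodUnique _ (Red G 0 0)).symm fun _ _ =>
    Prod.ext rfl (Subsingleton.elim (α := Red G 0 0) _ _)

/-- one more line -/
def iS : (triv LC G).obj RR ⊗ gl (KK j a H) ≅ gl (KK (j + 1) a H) :=
  Action.mkIso (ofHomeo (X := RR ⊗ (gl (KK j a H)).V) (Y := (gl (KK (j + 1) a H)).V)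
    (hS G (cell G H 0).carrier j a)) fun _ => LC.tensor_ext fun _ _ => rfl

/-- one more reduced regular representation -/
def iL : Kb G ⊗ gl (KK j a H) ≅ gl (KK j (a + 1) H) :=
  Action.mkIso (ofHomeo (X := (Kb G).V ⊗ (gl (KK j a H)).V) (Y := (gl (KK j (a + 1) H)).V)
    (hL G (cell G H 0).carrier j a)) fun g => LC.tensor_ext fun w x =>
      congrArg OnePoint.some (Prod.ext rfl (Subtype.ext (Prod.ext rfl (tw_cons a g w.1 x.2.1.2))))

/-- one more regular representation -/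
def iV : gl (KK (j + 1) (a + 1) H) ≅ gl ((reg G).prod (KK j a H)) :=
  glIso (hV G (cell G H 0).carrier j a).symm fun _ _ => rfl

variable (M : Type u) [Category.{0} M] [MonoidalCategory M] [SymmetricCategory M]
  [MonoidalClosed M] [HasZeroMorphisms M] [HasColimitsOfSize.{0, 0} M] [GIn G M]

/-- the tower of the test objects -/
def tow : Tw M where
  A j a := (TF M a).obj (gl (KK j a H))
  τ j a := (TF M (a + 1)).map (iV j a H).hom ≫ stb M a _
  c j a := csIso M a _ ≪≫ (TF M (a + 1)).mapIso (iV j a H).symm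
  hc j a := by
    rw [← csIso_stb, Iso.trans_hom, Category.assoc]
    exact congrArg _ (((TF M (a + 1)).mapIso (iV j a H)).inv_hom_id_assoc _)

theorem gg_iff (A : M) : GG M A ↔ ∃ (H : Subgroup G) (j a : ℕ), Nonempty (A ≅ (tow H M).A j a) := by
  constructor
  · rintro ⟨⟨H, w⟩, ⟨e⟩⟩
    refine ⟨H, ?_⟩
    induction w generalizing A with
    | nil => exact ⟨0, 0, ⟨e ≪≫ (JG M).mapIso (i0 H)⟩⟩
    | cons b w ih =>
      obtain ⟨j, a, ⟨f⟩⟩ := ih _ (Iso.refl _)
      cases b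
      · exact ⟨j, a + 1, ⟨e ≪≫ whiskerLeftIso _ f ≪≫ lIso M a _ ≪≫
          (TF M (a + 1)).mapIso (iL j a H)⟩⟩
      · exact ⟨j + 1, a, ⟨e ≪≫ whiskerLeftIso _ f ≪≫ sIso M a _ ≪≫ (TF M a).mapIso (iS j a H)⟩⟩
  · rintro ⟨H, j, a, ⟨e⟩⟩
    refine (GG M).prop_of_iso e.symm ?_
    clear e
    induction j with
    | zero =>
      induction a with
      | zero => exact ⟨(H, []), ⟨((JG M).mapIso (i0 H)).symm⟩⟩
      | succ a ih =>
        exact (GG M).prop_of_iso (lIso M a _ ≪≫ (TF M (a + 1)).mapIso (iL 0 a H))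
          (IsTest.desusp ih)
    | succ j ih =>
      exact (GG M).prop_of_iso (sIso M a _ ≪≫ (TF M a).mapIso (iS j a H)) (IsTest.susp ih)

variable {M j a H} {o : M ⥤ Action OSp G} (D : Dict o) {X Y : M}

theorem eqv_iff {W : Action OSp G} (u : Pm (Dm G j a) W.V (Nat.card G * a)) :
    Eqv H W u ↔ EqH H (RS G j a) W a u :=
  ⟨fun h g hg x => h g hg _ (exists_act g a).choose_spec x _ rfl, fun h g hg e he x y hy => by
    rw [am_eq he, show y = (g • (show (RS G j a).carrier from x) : (RS G j a).carrier) from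
      Subtype.ext hy]
    exact h g hg x⟩

/-- the element given by a morphism -/
def th (H : Subgroup G) (X : M) (D : Dict o) (x : (tow H M).T X) : Elt H (o.obj X) :=
  .of (j := x.1) (a := x.2.1) (res D x.2.2) ((eqv_iff _).2 (res_eqv D _))

theorem th_of (u : Pm (Dm G j a) (o.obj X).V (Nat.card G * a)) (hu : Eqv H _ u) :
    ∃ x : (tow H M).A j a ⟶ X, res D x = u ∧ th H X D ⟨j, a, x⟩ = .of u hu := by
  obtain ⟨x, rfl⟩ := res_surj D u ((eqv_iff _).1 hu)
  exact ⟨x, rfl, rfl⟩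

theorem th_bij : Function.Bijective (th H X D) := by
  refine ⟨?_, fun ⟨u, hu⟩ => (th_of D u hu).elim fun _ h => ⟨_, h.2⟩⟩
  rintro ⟨j, a, x⟩ ⟨j', a', x'⟩ h
  obtain ⟨rfl, rfl, h⟩ := Elt.of.inj h
  exact congrArg (fun z => (⟨j, a, z⟩ : (tow H M).T X))
    (res_inj D fun z => congrArg (Pm.fn · (.some z)) (eq_of_heq h))

theorem stb_res (x : (tow H M).A j a ⟶ X) :
    Stb (o.obj X) (res D x) (res (Z := RS G (j + 1) (a + 1)) (a := a + 1) D
      ((tow H M).τ j a ≫ x)) := fun t w z y hy h e => by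
  obtain ⟨y, hy'⟩ := y
  obtain rfl := hy
  exact ((congrArg (fun k => (D.el k).fn _) (Category.assoc _ _ _)).trans (D.pre _ _ _)).trans
    (D.stab x (fun k => t + w k) h e (c0 H, z))

theorem stb_unique {W : Action OSp G} {u : Pm (Dm G j a) W.V (Nat.card G * a)} {v v'}
    (h : Stb W u v) (h' : Stb W u v') (y : Red G (j + 1) (a + 1)) :
    v.fn (.some y) = v'.fn (.some y) := by
  obtain ⟨e, he⟩ := exists_stab (fun k => y.1.1 0 + y.1.2 0 k) a
  have hy : y.1 = (vecCons (y.1.1 0) (vecTail y.1.1), vecCons (y.1.2 0) (vecTail y.1.2)) :=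
    Prod.ext (cons_head_tail _).symm (cons_head_tail _).symm
  exact (h _ _ ⟨(_, _), fun i => y.2 i.succ⟩ y hy e he).trans
    (h' _ _ ⟨(_, _), fun i => y.2 i.succ⟩ y hy e he).symm

theorem th_gen (H : Subgroup G) (X : M) (D : Dict o) :
    ((tow H M).sys X).Gen fun x y => Rl H _ (th H X D x) (th H X D y) where
  le x y r := by
    generalize e1 : th H X D x = s at r
    generalize e2 : th H X D y = s' at r
    cases r with
    | htpy h e hc =>
      obtain ⟨x0, a0, b0⟩ := th_of D _ (e 0)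
      obtain ⟨x1, a1, b1⟩ := th_of D _ (e 1)
      rw [(th_bij D).1 (e1.trans b0.symm), (th_bij D).1 (e2.trans b1.symm)]
      exact .inl (((tow H M).H_iff _ _).2 ((mh_res D _ _).2
        ⟨h, fun t => (eqv_iff _).1 (e t), hc, a0.symm, a1.symm⟩))
    | stab e e' hs =>
      obtain ⟨x0, rfl, b0⟩ := th_of D _ e
      obtain ⟨x1, rfl, b1⟩ := th_of D _ e'
      obtain rfl : x1 = (tow H M).τ _ _ ≫ x0 :=
        res_inj (Z := RS G _ _) D (stb_unique hs (stb_res D x0))
      rw [(th_bij D).1 (e1.trans b0.symm), (th_bij D).1 (e2.trans b1.symm)]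
      exact .inr rfl
  ht := by
    rintro ⟨j, a, x⟩ ⟨j', a', x'⟩ h
    obtain ⟨rfl, rfl⟩ : j = j' ∧ a = a' := (tow H M).H_idx h
    obtain ⟨k, h1, h2, h3, h4⟩ := (mh_res D _ _).1 (((tow H M).H_iff _ _).1 h)
    have := Rl.htpy (H := H) k (fun t => (eqv_iff _).2 (h1 t)) h2
    simp only [h3, h4] at this
    exact this
  st x := .stab _ _ (stb_res D x.2.2)

variable (M) in
theorem d1 : D1 M := fun o D X Y f => by
  rw [piW_iff_SM]
  have key : ∀ H : Subgroup G, (∃ h : Quot (Rl H (o.obj X)) → Quot (Rl H (o.obj Y)),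
      h.Bijective ∧ ∀ j a (u : Pm (Dm G j a) (o.obj X).V _) v e e',
        (∀ x, v.fn x = (o.map f).hom.app _ (u.fn x)) → h (.mk _ (.of u e)) = .mk _ (.of v e')) ↔
      ∀ j a, SM f ((tow H M).A j a) ∧ IM f ((tow H M).A j a) := fun H => by
    rw [← (tow H M).key (th_gen H X D) (th_gen H Y D) f]
    let c := fun X : M => Quot.congr (ra := fun x y => Rl H _ (th H X D x) (th H X D y))
      (rb := Rl H _) (Equiv.ofBijective _ (th_bij D)) fun _ _ => Iff.rfl
    constructor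
    · rintro ⟨h, h1, h2⟩
      exact ⟨(c X).trans ((Equiv.ofBijective h h1).trans (c Y).symm), fun x =>
        (c Y).symm_apply_eq.2 (h2 _ _ _ _ _ _ fun z => D.post _ f _)⟩
    · rintro ⟨e, he⟩
      refine ⟨(c X).symm.trans (e.trans (c Y)), Equiv.bijective _, fun j a u v hu hv h => ?_⟩
      obtain ⟨x, rfl, hx⟩ := th_of D u hu
      obtain rfl : v = res D (x ≫ f) := pm_ext fun z => (h z).trans (D.post _ f _).symm
      exact congrArg (c Y) ((congrArg e ((c X).symm_apply_eq.2 rfl)).trans (he ⟨j, a, x⟩))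
  refine (forall_congr' key).trans ⟨fun h A hA => ?_, fun h H j a =>
    h _ ((gg_iff M _).2 ⟨H, j, a, ⟨Iso.refl _⟩⟩)⟩
  obtain ⟨H, j, a, ⟨e⟩⟩ := (gg_iff M A).1 hA
  exact ⟨SM_of_iso e (h H j a).1, IM_of_iso e (h H j a).2⟩

end Vale.Agent.P241GW
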