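import Vale.Agent.P241GR.D
import Vale.Agent.P251CJ.Pair

/-!
# P241G, row D1: maps out of `G/H × Z`
-/

open CategoryTheory MonoidalCategory Limits OnePoint Matrix

noncomputable section

namespace Vale.Agent.P241GW

open P251.G P251.G.LC P251.H P251.St P251CX P241.St P241GX P241GA P241GA.GIn P241GR
open P251.H.GS.StabInput
open P241.Geo (xt)

universe u

variable {G : Type} [Group G] [Finite G]

section Emb

variable {a b : ℕ}

/-- the inverse of `cd` -/
def dc (x : Fin (Nat.card G * a) → ℝ) (i : Fin a) (k : G) : ℝ :=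
  x (finProdFinEquiv (Finite.equivFin G k, i))

omit [Group G] in
theorem cd_dc (x : Fin (Nat.card G * a) → ℝ) : cd (dc x) = x := funext fun i =>
  congrArg x ((congrArg (fun z => finProdFinEquiv (z, i.modNat))
    ((Finite.equivFin G).apply_symm_apply _)).trans (finProdFinEquiv.apply_symm_apply i))

omit [Group G] in
theorem dc_cd (s : Fin a → G → ℝ) : dc (cd s) = s := funext fun i => funext fun k => by
  have h := finProdFinEquiv.symm_apply_apply (Finite.equivFin G k, i)
  exact (congrArg (fun z : Fin (Nat.card G) × Fin a => s z.2 ((Finite.equivFin G).symm z.1))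
    h).trans (congrArg (s i) ((Finite.equivFin G).symm_apply_apply k))

omit [Group G] in
theorem cd_dot [Fintype G] (s t : Fin a → G → ℝ) : cd s ⬝ᵥ cd t = ∑ i, ∑ k, s i k * t i k := by
  rw [dotProduct, ← finProdFinEquiv.sum_comp, Fintype.sum_prod_type_right]
  refine Finset.sum_congr rfl fun i _ => ?_
  rw [← (Finite.equivFin G).sum_comp]
  exact Finset.sum_congr rfl fun k _ =>
    congrArg₂ (· * ·) (congrFun (congrFun (dc_cd s) i) k) (congrFun (congrFun (dc_cd t) i) k)

omit [Group G] in
theorem exists_emb (φ : (Fin a → G → ℝ) → Fin b → G → ℝ) (c : ℝ)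
    (h : ∀ s t, cd (φ s) ⬝ᵥ cd (φ t) = cd s ⬝ᵥ cd t + c) :
    ∃ h : Emb (Nat.card G * a) (Nat.card G * b), ∀ s, ap h (cd s) = cd (φ s) := by
  obtain ⟨q, hq⟩ := P251CJ.exists_ap (fun x => cd (φ (dc x))) c fun x y => by
    rw [h, cd_dc, cd_dc]
  exact ⟨q, fun s => (hq _).trans (by rw [dc_cd])⟩

theorem exists_act (g : G) (a : ℕ) : ∃ h, IsAct (a := a) g h := by
  have := Fintype.ofFinite G
  refine exists_emb (tw g) 0 fun s t => ?_
  rw [cd_dot, cd_dot, add_zero]
  exact Finset.sum_congr rfl fun i _ =>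
    Equiv.sum_comp (Equiv.mulLeft g⁻¹) fun k => s i k * t i k

omit [Group G] in
theorem exists_stab (v : G → ℝ) (a : ℕ) :
    ∃ h : Emb (Nat.card G * a) (Nat.card G * (a + 1)), ∀ s, ap h (cd s) = cd (vecCons v s) := by
  have := Fintype.ofFinite G
  refine exists_emb (vecCons v) (∑ k, v k * v k) fun s t => ?_
  rw [cd_dot, cd_dot, Fin.sum_univ_succ, add_comm]
  rfl

/-- the action on `X (a ρ)` -/
def am (X : Action OSp G) (a : ℕ) (g : G) (y : X.V.sp (Nat.card G * a)) :
    X.V.sp (Nat.card G * a) :=
  X.V.ac (exists_act g a).choose ((X.ρ g).app _ y)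

variable {X : Action OSp G}

theorem am_eq {g : G} {h} (e : IsAct (a := a) g h) (y) :
    X.V.ac h ((X.ρ g).app _ y) = am X a g y := by
  have : h = (exists_act g a).choose := P251CJ.JP.ext fun x => by
    rw [← cd_dc x]; exact (e _).trans ((exists_act g a).choose_spec _).symm
  rw [this, am]

theorem am_one (y) : am X a 1 y = y := by
  rw [am, map_one]
  refine X.V.ac_id _ _ (fun s => ?_) y
  rw [← cd_dc s, (exists_act 1 a).choose_spec]
  congr 1
  funext i k
  simp [tw]

theorem am_mul (g g' : G) (y) : am X a (g * g') y = am X a g (am X a g' y) := by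
  rw [am, am, am, ((X.ρ g).ok _).2.2, map_mul]
  refine X.V.ac_comp _ _ _ _ _ _ (fun s => ?_) _
  rw [← cd_dc s, (exists_act _ a).choose_spec, (exists_act _ a).choose_spec,
    (exists_act _ a).choose_spec]
  congr 1
  funext i k
  simp [tw, mul_assoc]

theorem am_bp (g : G) : am X a g (X.V.bp _) = X.V.bp _ := by
  rw [am, ((X.ρ g).ok _).2.1, X.V.ac_bp]

theorem continuous_am (g : G) : Continuous (am X a g) :=
  (X.V.cont _ _).comp (f := fun y => (OnePoint.some (exists_act g a).choose, (X.ρ g).app _ y))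
    (continuous_const.prodMk ((X.ρ g).ok _).1)

theorem eqvG_iff {K : GSpace G} (u : Pm K.und X.V (Nat.card G * a)) : EqvG K X a u ↔
    ∀ (g : G) (x : K.carrier), u.fn (.some (g • x)) = am X a g (u.fn (.some x)) := by
  refine ⟨fun h g x => h g _ (exists_act g a).choose_spec (.some x), fun h g e he x => ?_⟩
  rw [am_eq he]
  induction x using OnePoint.rec with
  | infty => exact u.based.trans ((congrArg (am X a g) u.based).trans (am_bp g)).symm
  | coe x => exact h g x

end Emb

theorem pm_ext {A : Space} {W : OSp} {n : ℕ} {u v : Pm A W n} (h : ∀ x, u.fn x = v.fn x) :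
    u = v := by
  cases u; cases v; congr; exact funext h

variable (H : Subgroup G)

/-- the base point of the orbit -/
def c0 : (cell G H 0).carrier := (((1 : G) : G ⧸ H), 0)

variable {H}

/-- representatives -/
def sc (c : (cell G H 0).carrier) : G := c.1.out

omit [Finite G] in
theorem sc_smul (c : (cell G H 0).carrier) : sc c • c0 H = c :=
  Prod.ext ((congrArg (QuotientGroup.mk (s := H)) (mul_one _)).trans (QuotientGroup.out_eq' c.1))
    (Subsingleton.elim (α := Fin 0 → ℝ) _ _)

omit [Finite G] in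
theorem smul_c0 {g : G} : g • c0 H = c0 H ↔ g ∈ H := by
  refine (Prod.ext_iff.trans (and_iff_left (Subsingleton.elim (α := Fin 0 → ℝ) _ _))).trans ?_
  exact (QuotientGroup.eq (a := g * 1) (b := 1)).trans (by simp)

variable (H) (Z : GSpace G)

/-- `G/H × Z` -/
abbrev Kz : GSpace G := (cell G H 0).prod Z

/-- the fibre over the base point -/
def io (y : Z.und.Pt) : (Kz H Z).und.Pt := LC.smash (.some (c0 H)) y

omit [Finite G] in
theorem continuous_io : Continuous (io H Z) :=
  continuous_smash.comp (f := fun y => (OnePoint.some (c0 H), y))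
    (continuous_const.prodMk continuous_id)

variable (X : Action OSp G) (a : ℕ)

/-- `H`-maps -/
def EqH (u : Pm Z.und X.V (Nat.card G * a)) : Prop :=
  ∀ g ∈ H, ∀ x : Z.carrier, u.fn (.some (g • x)) = am X a g (u.fn (.some x))

variable {H Z X a}

theorem exists_ext (u : Pm Z.und X.V (Nat.card G * a)) (hu : EqH H Z X a u) :
    ∃ v : Pm (Kz H Z).und X.V (Nat.card G * a), EqvG _ X a v ∧ ∀ y, v.fn (io H Z y) = u.fn y := by
  have : Finite (cell G H 0).carrier := inferInstanceAs (Finite ((G ⧸ H) × (Fin 0 → ℝ)))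
  have : Nonempty (cell G H 0).carrier := ⟨c0 H⟩
  have hq : Topology.IsQuotientMap fun p : (cell G H 0).carrier × OnePoint Z.carrier =>
      LC.smash (.some p.1) p.2 := .of_surjective_continuous (fun y => by
    induction y using OnePoint.rec with
    | infty => exact ⟨(c0 H, ∞), rfl⟩
    | coe y => exact ⟨(y.1, .some y.2), rfl⟩)
    (continuous_smash.comp (f := fun p : (cell G H 0).carrier × OnePoint Z.carrier =>
      (OnePoint.some p.1, p.2)) ((continuous_coe.comp continuous_fst).prodMk continuous_snd))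
  refine ⟨⟨fun y => y.elim (X.V.bp _) fun p => am X a (sc p.1) (u.fn (.some ((sc p.1)⁻¹ • p.2))),
    hq.continuous_iff.2 (continuous_prod_of_discrete_left.2 fun c => ?_), rfl⟩,
    (eqvG_iff _).2 fun g x => ?_, fun y => ?_⟩
  · refine (((continuous_am (sc c)).comp u.cont).comp
      (LC.continuous_app (P241.Geo.act Z (sc c)⁻¹))).congr fun y => ?_
    induction y using OnePoint.rec with
    | infty => exact (congrArg (am X a (sc c)) u.based).trans (am_bp _)
    | coe y => rfl
  · have h := hu ((sc (g • x.1))⁻¹ * g * sc x.1) (smul_c0.1 (by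
      rw [mul_smul, mul_smul, sc_smul, inv_smul_eq_iff, sc_smul])) ((sc x.1)⁻¹ • x.2)
    rw [smul_smul, mul_inv_cancel_right, mul_smul] at h
    refine (congrArg (am X a (sc (g • x.1))) h).trans ?_
    rw [← am_mul, mul_assoc, mul_inv_cancel_left, am_mul]
    rfl
  · induction y using OnePoint.rec with
    | infty => exact u.based.symm
    | coe y =>
      have h := hu (sc (c0 H)) (smul_c0.1 (sc_smul _)) ((sc (c0 H))⁻¹ • y)
      rw [smul_inv_smul] at h
      exact h.symm

variable {M : Type u} [Category.{0} M] [MonoidalCategory M] [SymmetricCategory M]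
  [MonoidalClosed M] [HasZeroMorphisms M] [HasColimitsOfSize.{0, 0} M] [GIn G M]
  {o : M ⥤ Action OSp G} (D : Dict o) {X : M}

/-- restriction to the fibre -/
def res (x : (TF M a).obj (gl (Kz H Z)) ⟶ X) : Pm Z.und (o.obj X).V (Nat.card G * a) :=
  ⟨fun y => (D.el x).fn (io H Z y), (D.el x).cont.comp (continuous_io H Z), (D.el x).based⟩

theorem res_eqv (x : (TF M a).obj (gl (Kz H Z)) ⟶ X) : EqH H Z _ a (res D x) := fun g hg z =>
  (congrArg (fun c => (D.el x).fn (.some (c, g • z))) (smul_c0.2 hg).symm).trans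
    ((eqvG_iff _).1 (D.eqv x) g (c0 H, z))

theorem res_inj {x x' : (TF M a).obj (gl (Kz H Z)) ⟶ X}
    (h : ∀ z : Z.carrier, (res D x).fn (.some z) = (res D x').fn (.some z)) : x = x' :=
  D.inj _ _ fun y => by
    induction y using OnePoint.rec with
    | infty => exact (D.el x).based.trans (D.el x').based.symm
    | coe y =>
      have e : sc y.1 • ((c0 H, (sc y.1)⁻¹ • y.2) : (Kz H Z).carrier) = y :=
        Prod.ext (sc_smul _) (smul_inv_smul _ _)
      rw [← e]
      exact ((eqvG_iff _).1 (D.eqv x) _ _).trans ((congrArg _ (h _)).trans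
        ((eqvG_iff _).1 (D.eqv x') _ _).symm)

theorem res_surj (u) (hu : EqH H Z (o.obj X) a u) :
    ∃ x : (TF M a).obj (gl (Kz H Z)) ⟶ X, res D x = u := by
  obtain ⟨v, h1, h2⟩ := exists_ext u hu
  obtain ⟨x, rfl⟩ := D.surj v h1
  exact ⟨x, pm_ext h2⟩

theorem mh_res (x x' : (TF M a).obj (gl (Kz H Z)) ⟶ X) : MHtpy x x' ↔
    ∃ h : ℝ → Pm Z.und (o.obj X).V (Nat.card G * a), (∀ t, EqH H Z _ a (h t)) ∧
      Continuous (Function.uncurry fun t => (h t).fn) ∧ h 0 = res D x ∧ h 1 = res D x' := by
  rw [mHtpy_iff]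
  constructor
  · rintro ⟨K, rfl, rfl⟩
    refine ⟨fun t => res D ((TF M a).map (gincl (Set.projIcc 0 1 zero_le_one t) _) ≫ K),
      fun t => res_eqv D _, ?_, 
      congrArg (fun t => res D ((TF M a).map (gincl t _) ≫ K)) (Set.projIcc_left zero_le_one),
      congrArg (fun t => res D ((TF M a).map (gincl t _) ≫ K)) (Set.projIcc_right zero_le_one)⟩
    refine ((D.el K).cont.comp ((continuous_smashII (P241.Geo.L (Kz H Z))).comp
      (f := fun p : ℝ × Z.und.Pt => (io H Z p.2, Set.projIcc 0 1 zero_le_one p.1))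
      (((continuous_io H Z).comp continuous_snd).prodMk
        (continuous_projIcc.comp continuous_fst)))).congr fun p => ?_
    refine Eq.trans (congrArg (D.el K).fn ?_) (D.pre _ K _).symm
    obtain ⟨t, y⟩ := p
    induction y using OnePoint.rec with
    | infty => exact (app_infty (gincl _ (Kz H Z)).hom).symm
    | coe y => rfl
  · rintro ⟨h, h1, h2, h3, h4⟩
    obtain ⟨K, hK⟩ := res_surj D (H := H) (Z := xt Z Iv) (X := X) (a := a)
      ⟨fun y => y.elim ((o.obj X).V.bp _) fun p =>
        (h (Subtype.val (p := (· ∈ unitInterval)) p.2)).fn (.some p.1),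
        (isQuotientMap_smashII (P241.Geo.L Z)).continuous_iff.2 ((h2.comp
          (f := fun p : Z.und.Pt × unitInterval => ((p.2 : ℝ), p.1))
          ((continuous_subtype_val.comp continuous_snd).prodMk continuous_fst)).congr fun p => by
            obtain ⟨y, t⟩ := p
            induction y using OnePoint.rec with
            | infty => exact (h t).based
            | coe y => rfl), rfl⟩ fun g hg z => h1 _ g hg z.1
    have e : ∀ (t : unitInterval) (z : Z.carrier), (res D ((TF M a).map (gincl t _) ≫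
        (TF M a).map (glIso (X := xt (Kz H Z) Iv) (Y := Kz H (xt Z Iv)) (Homeomorph.prodAssoc _ _ _)
          fun _ _ => rfl).hom ≫ K)).fn (.some z) = (h t).fn (.some z) := fun t z =>
      (D.pre _ _ _).trans ((D.pre _ _ _).trans (congrArg (·.fn (.some (z, t))) hK))
    exact ⟨_, res_inj D fun z => (e 0 z).trans (congrArg (Pm.fn · (.some z)) h3),
      res_inj D fun z => (e 1 z).trans (congrArg (Pm.fn · (.some z)) h4)⟩

end Vale.Agent.P241GW
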