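import Vale.Agent.P241GP.P1

/-!
# P241G, row P3: geometric fixed points of suspension spectra
-/

open CategoryTheory Topology OnePoint Matrix Filter

noncomputable section

namespace Vale.Agent.P241GW

open P251.St P251CX P241.St P241GX P241GR P241GP
open P251.G.LC (continuous_smash)
open P241Z (fixIncl)

variable {m n : ℕ} {A : Space} {X Y : OSp}

/-- the pair of a vector -/
def ptE (t : Fin n → ℝ) : Emb 0 n := (ex_pt t).choose

theorem ap_ptE (t : Fin n → ℝ) (s) : ap (ptE t) s = t := (ex_pt t).choose_spec s

theorem continuous_ptO : Continuous (OnePoint.map (ptE : (Fin n → ℝ) → _)) :=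
  continuous_mapO (continuous_emb fun s => by simp only [ap_ptE]; exact continuous_id)
    fun r => by simp only [ap_ptE]; exact isCompact_dot r

/-- the action on `S^n ∧ A⁺` -/
def mp (A : Space) (f : Emb m n) : OnePoint ((Fin m → ℝ) × A.carrier) →
    OnePoint ((Fin n → ℝ) × A.carrier) := OnePoint.map fun p => (ap f p.1, p.2)

/-- the suspension spectrum -/
def Su (A : Space) : OSp where
  sp n := OnePoint ((Fin n → ℝ) × A.carrier)
  cg n := inferInstance
  wh n B _ _ _ g hg := (isCompact_range hg).isClosed
  bp n := ∞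
  ac := mp A
  cont m n := by
    have := lc_emb m n
    have h : IsProperMap fun q : Emb m n × (Fin m → ℝ) × A.carrier => (ap q.1 q.2.1, q.2.2) :=
      (isProperMap_ap.prodMap isProperMap_id).comp (Homeomorph.prodAssoc _ _ _).symm.isProperMap
    refine ((OnePoint.continuous_map h.continuous (by
      rw [coclosedCompact_eq_cocompact, coclosedCompact_eq_cocompact]
      exact (isProperMap_iff_tendsto_cocompact.1 h).2)).comp continuous_smash).congr ?_
    rintro ⟨f, x⟩
    induction f using OnePoint.rec with
    | infty => rfl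
    | coe f => induction x using OnePoint.rec <;> rfl
  ac_bp m n f := rfl
  ac_id n f hf x := by
    induction x using OnePoint.rec with
    | infty => rfl
    | coe x => exact congrArg (fun z => OnePoint.some (z, x.2)) (hf x.1)
  ac_comp k m n f g h hh x := by
    induction x using OnePoint.rec with
    | infty => rfl
    | coe x => exact congrArg (fun z => OnePoint.some (z, x.2)) (hh x.1)

/-- the map out of the suspension spectrum -/
def ev (u : Pm A X 0) (n : ℕ) (p : OnePoint ((Fin n → ℝ) × A.carrier)) : X.sp n :=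
  p.elim (X.bp n) fun q => X.ac (ptE q.1) (u.fn (.some q.2))

theorem continuous_ev (u : Pm A X 0) (n : ℕ) : Continuous (ev u n) := by
  have hq : IsQuotientMap fun p : OnePoint (Fin n → ℝ) × OnePoint A.carrier =>
      P251.G.LC.smash p.1 p.2 := .of_surjective_continuous (fun y => by
    induction y using OnePoint.rec with
    | infty => exact ⟨(∞, ∞), rfl⟩
    | coe y => exact ⟨(.some y.1, .some y.2), rfl⟩) continuous_smash
  refine hq.continuous_iff.2 (((X.cont 0 n).comp (continuous_ptO.prodMap u.cont)).congr ?_)
  rintro ⟨t, x⟩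
  induction t using OnePoint.rec with
  | infty => rfl
  | coe t =>
    induction x using OnePoint.rec with
    | infty => exact (congrArg (X.ac (ptE t)) u.based).trans (X.ac_bp _ _ _)
    | coe x => rfl

theorem ac_ev (u : Pm A X 0) (f : Emb m n) (p) : X.ac f (ev u m p) = ev u n (mp A f p) := by
  induction p using OnePoint.rec with
  | infty => exact X.ac_bp _ _ _
  | coe p => exact (X.ac_comp _ _ _ _ _ _ (fun s => by rw [ap_ptE, ap_ptE]) _).symm

theorem app_ev {u : Pm A X 0} {v : Pm A Y 0} (h : Mor X Y) (e : ∀ x, h.app 0 (u.fn x) = v.fn x)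
    (p) : h.app n (ev u n p) = ev v n p := by
  induction p using OnePoint.rec with
  | infty => exact (h.ok n).2.1
  | coe p => exact ((h.ok n).2.2 _ _ _).trans (congrArg _ (e _))

theorem ev_zero (u : Pm A X 0) (x : A.Pt) : ev u 0 (x.map fun a => (0, a)) = u.fn x := by
  induction x using OnePoint.rec with
  | infty => exact u.based.symm
  | coe x => exact ac_zero X _ _

theorem free_of (u : Pm A X 0) (h : ∀ n, Function.Bijective (ev u n)) (hT : ∀ n, T2Space (X.sp n)) :
    IsFree u := fun Y v => by
  let e := fun n => (continuous_ev u n).homeoOfEquivCompactToT2 (f := Equiv.ofBijective _ (h n))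
  have he : ∀ n p, (e n).symm (ev u n p) = p := fun n => (e n).symm_apply_apply
  refine ⟨⟨fun n x => ev v n ((e n).symm x), fun n => ⟨(continuous_ev v n).comp (e n).symm.continuous,
    congrArg (ev v n) (he n ∞), fun m g x => ?_⟩⟩, fun x => ?_, fun k hk => mor_ext fun n x => ?_⟩
  · obtain ⟨p, rfl⟩ := (h m).2 x
    simp only [ac_ev, he]
  · rw [← ev_zero u, ← ev_zero v]
    exact congrArg (ev v 0) (he 0 _)
  · obtain ⟨p, rfl⟩ := (h n).2 x
    exact (app_ev k hk p).trans (congrArg (ev v n) (he n p)).symm

theorem of_free {u : Pm A X 0} (hu : IsFree u) (n : ℕ) :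
    Function.Bijective (ev u n) ∧ T2Space (X.sp n) := by
  let u0 : Pm A (Su A) 0 := ⟨fun x => P251.G.LC.smash (.some 0) x,
    continuous_smash.comp (f := fun y : A.Pt => (OnePoint.some (0 : Fin 0 → ℝ), y))
      (continuous_const.prodMk continuous_id), rfl⟩
  obtain ⟨h, h1, -⟩ := hu _ u0
  have h2 : ∀ p, h.app n (ev u n p) = p := fun p => (app_ev h h1 p).trans (by
    induction p using OnePoint.rec with
    | infty => rfl
    | coe p => exact congrArg (fun z => OnePoint.some (z, p.2)) (ap_ptE _ _))
  let k : Mor (Su A) X := ⟨ev u, fun n => ⟨continuous_ev u n, rfl, fun m g x => (ac_ev u g x).symm⟩⟩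
  have h3 : cmp h k = idm X := (hu X u).unique (fun x => (congrArg (ev u 0) (h1 x)).trans (by
    induction x using OnePoint.rec with
    | infty => exact u.based.symm
    | coe x => exact ac_zero X _ _)) fun _ => rfl
  have h4 : ∀ x, ev u n (h.app n x) = x := fun x => congrArg (fun φ : Mor X X => φ.app n x) h3
  exact ⟨⟨Function.LeftInverse.injective h2, Function.RightInverse.surjective h4⟩,
    @T2Space.of_injective_continuous _ _ _ _ (inferInstanceAs
      (T2Space (OnePoint ((Fin n → ℝ) × A.carrier)))) _
      (Function.LeftInverse.injective h4) (h.ok n).1⟩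

/-- **Row P3.** -/
theorem p3 (G : Type) [Group G] [Finite G] : P3 G := fun H P K X u hu hf => by
  have h0 : ∀ (g : G) x, (X.ρ g).app 0 (u.fn x) = u.fn (K.smul g x) := fun g x =>
    ((hu g _ (isAct_act g 0) x).trans (ac_zero X.V _ _)).symm
  have hc : Continuous (fixIncl K H) := OnePoint.continuous_map continuous_subtype_val (by
    rw [coclosedCompact_eq_cocompact, coclosedCompact_eq_cocompact]
    exact (K.isClosed_fixedPoints H).isClosedEmbedding_subtypeVal.tendsto_cocompact)
  obtain ⟨v, hv, hv'⟩ := ex_lift (u.cont.comp hc) (P.ok X 0).1 fun x =>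
    ((P.ok X 0).2.2.1 _).2 fun g h _ => (ac_zero X.V h _).trans ((h0 g _).trans (by
      induction x using OnePoint.rec with
      | infty => rfl
      | coe x => exact congrArg (fun z => u.fn (.some z)) (x.2 g)))
  let w : Pm (K.fix H) (P.Φ.obj X) 0 := ⟨v, hv, (P.ok X 0).1.injective
    ((hv' _).trans (u.based.trans (P.ok X 0).2.1.symm))⟩
  have h1 : ∀ n (t : Fin n → ℝ) (x : (K.fix H).carrier), P.e X n (ev w n (.some (t, x))) =
      ev u _ (.some (cd fun i (_ : H) => t i, x.1)) := fun n t x =>
    ((P.ok X n).2.2.2 0 (ptE t) (ptE (cd fun i (_ : H) => t i))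
      (fun s => by simp only [ap_ptE]) _).trans (congrArg _ (hv' _))
  have h2 : ∀ n, P.e X n (ev w n ∞) = ev u _ ∞ := fun n => (P.ok X n).2.1
  refine ⟨w, free_of w (fun n => ⟨fun p q e => ?_, fun y => ?_⟩) fun n => ?_, hv'⟩
  · have e' := congrArg (P.e X n) e
    induction p using OnePoint.rec with
    | infty =>
      induction q using OnePoint.rec with
      | infty => rfl
      | coe q =>
        exact absurd ((of_free hf _).1.1 ((h2 n).symm.trans (e'.trans (h1 n q.1 q.2))))
          (infty_ne_coe _)
    | coe p =>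
      induction q using OnePoint.rec with
      | infty =>
        exact absurd ((of_free hf _).1.1 ((h2 n).symm.trans
          (e'.symm.trans (h1 n p.1 p.2)))) (infty_ne_coe _)
      | coe q =>
        have h3 := Prod.mk.inj (coe_injective ((of_free hf _).1.1
          ((h1 n p.1 p.2).symm.trans (e'.trans (h1 n q.1 q.2)))))
        exact congrArg _ (Prod.ext (funext fun i => congrFun (congrFun (cd_inj h3.1) i) 1)
          (Subtype.ext h3.2))
  · obtain ⟨p, hp⟩ := (of_free hf _).1.2 (P.e X n y)
    induction p using OnePoint.rec with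
    | infty => exact ⟨∞, (P.ok X n).1.injective ((h2 n).trans hp)⟩
    | coe p =>
      obtain ⟨z, x⟩ := p
      obtain ⟨s, rfl⟩ := cd_surj (G := H) z
      have h3 : ∀ g : H, tw g s = s ∧ g • x = x := fun g => by
        have h4 := ((P.ok X n).2.2.1 _).1 ⟨y, rfl⟩ g _ (isAct_act g n)
        rw [← hp] at h4
        have h5 : (X.ρ g).app _ (ev u _ (.some (cd s, x))) = ev u _ (.some (cd s, g • x)) :=
          (((X.ρ g).ok _).2.2 _ _ _).trans (congrArg _ (h0 g _))
        rw [h5, ac_ev] at h4
        have h6 := Prod.mk.inj (coe_injective ((of_free hf _).1.1 h4))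
        exact ⟨cd_inj ((ap_act g s).symm.trans h6.1), h6.2⟩
      refine ⟨.some (fun i => s i 1, ⟨x, fun g => (h3 g).2⟩), (P.ok X n).1.injective
        ((h1 n _ _).trans (Eq.trans ?_ hp))⟩
      congr 4
      funext i k
      exact (congrArg (s i) (inv_mul_cancel k).symm).trans (congrFun (congrFun (h3 k).1 i) k)
  · have := (of_free hf (Nat.card H * n)).2
    exact (P.ok X n).1.t2Space

end Vale.Agent.P241GW
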